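import Mathlib
import Vale.Agent.P052.Geo

/-!
Borsuk's conjecture fails in dimension 63: a bounded subset of `EuclideanSpace ℝ (Fin 63)` of positive
diameter such that every cover of it by 64 sets has a member whose trace on it has full diameter.
-/

theorem Vale.Agent.Results.P052.BorsukFailsDim63.result :
    ∃ Y : Set (EuclideanSpace ℝ (Fin 63)), Bornology.IsBounded Y ∧ 0 < Metric.diam Y ∧
      ∀ F : Fin 64 → Set (EuclideanSpace ℝ (Fin 63)), Y ⊆ ⋃ i, F i →
        ∃ i, Metric.diam Y ≤ Metric.diam (Y ∩ F i) :=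
  Vale.Agent.P052.main
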